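import Crest.Agent.N206.PL.Protect.Line

/-!
# Row 206, S0317, `protect`: the geometry of a good centre and of one type (helper39)
-/

set_option autoImplicit false

noncomputable section

open scoped Classical

namespace Crest.Agent.N206.PL.Prot

open Crest.GeometryTopology.GraphMetric Crest.Agent.R206.Iface534 SimpleGraph Finset

variable {V : Type} {G : SimpleGraph V} {ℓ : Sym2 V → ℝ} {δ : ℝ}

/-- `k` is at most `β` to the left of the centre `c` -/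
def Nr (Q : Geo G ℓ) (β : ℝ) (k c : ℕ) : Prop := Q.pos k ≤ Q.pos c ∧ Q.pos c ≤ Q.pos k + β

theorem ends (h : WG G ℓ δ) (Q : Geo G ℓ) {k : ℕ} (hk : k ≤ Q.n) {X : ℝ}
    (hs : ¬ Sep G (bl G ℓ (Q.v k) X) (Q.v 0) (Q.v Q.n)) :
    Q.pos 0 + X < Q.pos k ∧ Q.pos k + X < Q.pos Q.n := by
  rw [not_sep_iff] at hs
  have h1 := cmp_sub _ _ hs
  have h2 := cmp_sub _ _ (cmp_symm hs)
  simp only [Set.mem_compl_iff, mem_bl, not_le] at h1 h2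
  rw [Q.dist k Q.n hk le_rfl] at h1
  rw [h.comm, Q.dist 0 k (Nat.zero_le _) hk] at h2
  constructor <;> linarith

/-- choice of the direction -/
theorem dir (h : WG G ℓ δ) (hδ : 0 ≤ δ) (Q : Geo G ℓ) {c m : ℕ} {β ρ : ℝ}
    (hm : m ≤ Q.n) (hβ : 0 ≤ β) (h0 : Q.pos 0 + 6 * ρ ≤ Q.pos c)
    (hn : Q.pos c + 6 * ρ ≤ Q.pos Q.n) (h1 : |Q.pos m - Q.pos c| ≤ 2 * ρ)
    (h2 : 2 * β < |Q.pos m - Q.pos c|) :
    ∃ e E E', e ≤ Q.n ∧ (E = 0 ∨ E = Q.n) ∧ (E' = 0 ∨ E' = Q.n) ∧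
      |Q.pos m - Q.pos e| ≤ 4 * ρ + δ ∧
      (∀ k, min e E ≤ k → k ≤ max e E → 4 * ρ ≤ |Q.pos k - Q.pos m|) ∧
      (∀ k < Q.n, Nr Q β k c → min m e ≤ k ∧ k < max m e) ∧
      ∀ k', min m E' ≤ k' → k' ≤ max m E' → ∀ k, Nr Q β k c → β ≤ |Q.pos k - Q.pos k'| := by
  have h1' := abs_le.1 h1
  rcases lt_abs.1 h2 with h3 | h3
  · obtain ⟨e, a1, a2, a3⟩ := exists_left h hδ Q hm (L := 4 * ρ) (by linarith) (by linarith [h1'.1])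
    refine ⟨e, 0, Q.n, a1.trans hm, Or.inl rfl, Or.inr rfl, abs_le.2 ⟨by linarith, by linarith⟩,
      fun k _ hk => ?_, fun k hk hkc => ?_, fun k' hk _ k hkc => ?_⟩
    · have := Q.pos_mono h (show k ≤ e by simpa using hk) (a1.trans hm)
      exact le_abs.2 (Or.inr (by linarith))
    · rw [min_eq_right a1, max_eq_left a1]
      exact ⟨le_of_pos h Q (a1.trans hm) (by linarith [hkc.2, h1'.2]),
        lt_of_pos h Q hk.le (by linarith [hkc.1])⟩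
    · rename_i hk'
      rw [max_eq_right hm] at hk'
      have := Q.pos_mono h (show m ≤ k' by rwa [min_eq_left hm] at hk) hk'
      exact le_abs.2 (Or.inr (by linarith [hkc.1]))
  · obtain ⟨e, a1, a2, a3, a4, -⟩ := exists_right h hδ Q hm (L := 4 * ρ) (by linarith)
      (by linarith [h1'.2])
    refine ⟨e, Q.n, 0, a2, Or.inr rfl, Or.inl rfl, abs_le.2 ⟨by linarith, by linarith⟩,
      fun k hk hk' => ?_, fun k hk hkc => ?_, fun k' _ hk k hkc => ?_⟩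
    · rw [min_eq_left a2] at hk
      rw [max_eq_right a2] at hk'
      have := Q.pos_mono h hk hk'
      exact le_abs.2 (Or.inl (by linarith))
    · rw [min_eq_left a1, max_eq_right a1]
      exact ⟨le_of_pos h Q hm (by linarith [hkc.2]),
        lt_of_pos h Q hk.le (by linarith [hkc.1, h1'.1])⟩
    · have := Q.pos_mono h (show k' ≤ m by simpa using hk) hm
      exact le_abs.2 (Or.inl (by linarith [hkc.2]))

/-- what one centre provides for its type -/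
def Arm (G : SimpleGraph V) (ℓ : Sym2 V → ℝ) (z : V) (Z : Set V) (L e W : ℝ)
    (u : (Sym2 V → ℝ) → ℝ) (Pt : Set V) : Prop :=
  ∃ (en : V) (p : G.Walk z en) (Tl : Set V), en ∈ Tl ∧ Cn G Tl ∧ (Z ∩ Tl).Nonempty ∧
    (∀ y ∈ Tl, L ≤ wdist G ℓ z y) ∧ wl ℓ p ≤ L + e ∧
    (∀ g : Sym2 V → ℝ, (∀ ed ∈ G.edgeSet, 0 ≤ g ed) → u g ≤ wl g p) ∧
    ∀ x ∈ Pt, wdist G ℓ z x + W ≤ L ∧
      ∃ τ ∈ Z, ∃ p₀ : G.Walk z τ, ∀ v ∈ p₀.support, W ≤ wdist G ℓ x v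

theorem Arm.mono {z : V} {Z : Set V} {L e W : ℝ} {u : (Sym2 V → ℝ) → ℝ} {Pt Pt' : Set V}
    (h : Arm G ℓ z Z L e W u Pt) (hP : Pt' ⊆ Pt) : Arm G ℓ z Z L e W u Pt' := by
  obtain ⟨en, p, Tl, h1, h2, h3, h4, h5, h6, h7⟩ := h
  exact ⟨en, p, Tl, h1, h2, h3, h4, h5, h6, fun x hx => h7 x (hP hx)⟩

/-- the length of the edges near a centre -/
def un (Q : Geo G ℓ) (β : ℝ) (c : ℕ) (g : Sym2 V → ℝ) : ℝ :=
  ∑ k ∈ range Q.n, if Nr Q β k c then g s(Q.v k, Q.v (k + 1)) else 0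

theorem arm [Fintype V] (h : WG G ℓ δ) (hδ : 0 ≤ δ) (Q : Geo G ℓ) {z : V} {k₀ c m m₂ : ℕ}
    {Ds β ρ W X : ℝ} (hk₀ : k₀ ≤ Q.n) (hm : m ≤ Q.n) (hm₂ : m₂ ≤ Q.n)
    (hkc : Nr Q β k₀ c) (hs : ¬ Sep G (bl G ℓ (Q.v k₀) X) (Q.v 0) (Q.v Q.n))
    (h1 : |Q.pos m - Q.pos c| ≤ 2 * ρ) (h2 : 2 * β < |Q.pos m - Q.pos c|)
    (h3 : 8 * ρ < |Q.pos m₂ - Q.pos c|) (hz : wdist G ℓ (Q.v m) z ≤ Ds) (hDs : δ ≤ Ds)
    (hW : 0 ≤ W) (hβ : Ds + W ≤ β) (hρ : 2 * β ≤ ρ) (hX : β + 6 * ρ + Ds ≤ X) :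
    6 * ρ - Ds < wdist G ℓ z (Q.v m₂) ∧
    Arm G ℓ z (cmp G (bl G ℓ z (4 * ρ))ᶜ (Q.v m₂)) (4 * ρ - Ds) (3 * Ds) W (un Q β c)
      {x | ∃ k ≤ Q.n, Nr Q β k c ∧ Q.v k = x} := by
  have hDs0 : 0 ≤ Ds := hδ.trans hDs
  have hβ0 : 0 ≤ β := by linarith
  obtain ⟨e0, en⟩ := ends h Q hk₀ hs
  have far : ∀ k ≤ Q.n, |Q.pos k - Q.pos m| - Ds ≤ wdist G ℓ z (Q.v k) := fun k hk => by
    have := h.tri (Q.v m) z (Q.v k)
    rw [Q.d_abs h hm hk, abs_sub_comm] at this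
    linarith
  have near : ∀ k ≤ Q.n, wdist G ℓ z (Q.v k) ≤ |Q.pos k - Q.pos m| + Ds := fun k hk => by
    have := h.tri z (Q.v m) (Q.v k)
    rw [Q.d_abs h hm hk, abs_sub_comm, h.comm z (Q.v m)] at this
    linarith
  have far8 : ∀ k ≤ Q.n, 8 * ρ < |Q.pos k - Q.pos c| → 6 * ρ - Ds < wdist G ℓ z (Q.v k) :=
    fun k hk hk' => by
      have := abs_sub_le (Q.pos k) (Q.pos m) (Q.pos c)
      linarith [far k hk]
  refine ⟨far8 m₂ hm₂ h3, ?_⟩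
  set S := (bl G ℓ z (4 * ρ))ᶜ with hS
  have hsub : (bl G ℓ (Q.v k₀) X)ᶜ ⊆ S := by
    refine Set.compl_subset_compl.2 fun y hy => ?_
    rw [mem_bl] at hy ⊢
    have a1 := h.tri (Q.v k₀) z y
    have a2 := near k₀ hk₀
    have a3 := abs_sub_le (Q.pos k₀) (Q.pos c) (Q.pos m)
    have a4 : |Q.pos k₀ - Q.pos c| ≤ β := abs_le.2 ⟨by linarith [hkc.2], by linarith [hkc.1]⟩
    rw [h.comm (Q.v k₀) z] at a1
    rw [abs_sub_comm (Q.pos c)] at a3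
    linarith
  have h0n : Q.v Q.n ∈ cmp G S (Q.v 0) := cmp_mono hsub _ (not_sep_iff.1 hs)
  have hend : ∀ E, E = 0 ∨ E = Q.n → Q.v E ∈ cmp G S (Q.v m₂) := by
    have key : Q.v 0 ∈ cmp G S (Q.v m₂) ∨ Q.v Q.n ∈ cmp G S (Q.v m₂) := by
      rcases lt_abs.1 h3 with h4 | h4
      · obtain ⟨p, -, hp⟩ := seg_le Q hm₂ le_rfl
        refine Or.inr ⟨p, fun x hx => ?_⟩
        obtain ⟨k, b1, b2, rfl⟩ := hp x hx
        have := far8 k b2 (lt_abs.2 (Or.inl (by linarith [Q.pos_mono h b1 b2])))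
        simp only [hS, Set.mem_compl_iff, mem_bl, not_le]
        linarith
      · obtain ⟨p, -, hp⟩ := seg_le Q (Nat.zero_le m₂) hm₂
        refine Or.inl (cmp_symm ⟨p, fun x hx => ?_⟩)
        obtain ⟨k, -, b2, rfl⟩ := hp x hx
        have := far8 k (b2.trans hm₂) (lt_abs.2 (Or.inr (by linarith [Q.pos_mono h b2 hm₂])))
        simp only [hS, Set.mem_compl_iff, mem_bl, not_le]
        linarith
    rintro E (rfl | rfl)
    · exact key.elim id fun h' => cmp_trans h' (cmp_symm h0n)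
    · exact key.elim (fun h' => cmp_trans h' h0n) id
  obtain ⟨e, E, E', he, hE, hE', d1, d2, d3, d4⟩ := dir h hδ Q hm hβ0
    (by linarith [hkc.1]) (by linarith [hkc.2]) h1 h2
  have hEn : E ≤ Q.n := by rcases hE with rfl | rfl <;> simp
  have hEn' : E' ≤ Q.n := by rcases hE' with rfl | rfl <;> simp
  obtain ⟨p₁, -, hp₁⟩ := h.exists_geo z (Q.v m)
  rw [h.comm] at hp₁
  obtain ⟨p₂, hp₂, -⟩ := seg Q hm he
  obtain ⟨p₃, -, hp₃⟩ := seg Q he hEn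
  obtain ⟨p₄, -, hp₄⟩ := seg Q hm hEn'
  refine ⟨Q.v e, p₁.append p₂, {v | v ∈ p₃.support}, p₃.start_mem_support, Cn.support p₃,
    ⟨Q.v E, hend E hE, p₃.end_mem_support⟩, fun y hy => ?_, ?_, fun g hg => ?_, ?_⟩
  · obtain ⟨k, b1, b2, rfl⟩ := hp₃ y hy
    linarith [far k (b2.trans (max_le he hEn)), d2 k b1 b2]
  · rw [wl_append, hp₂, sum_len h Q hm he]
    linarith
  · rw [wl_append, hp₂, un, ← sum_filter]
    have b1 := wl_nonneg' hg p₁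
    have b2 : ∑ k ∈ (range Q.n).filter (fun k => Nr Q β k c), g s(Q.v k, Q.v (k + 1)) ≤
        ∑ k ∈ Ico (min m e) (max m e), g s(Q.v k, Q.v (k + 1)) := by
      refine sum_le_sum_of_subset_of_nonneg (fun k hk => ?_) fun k hk _ => ?_
      · rw [mem_filter, mem_range] at hk
        exact mem_Ico.2 (d3 k hk.1 hk.2)
      · exact hg _ (Q.adj k ((mem_Ico.1 hk).2.trans_le (max_le hm he)))
    linarith
  · rintro x ⟨k, hk, hkc', rfl⟩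
    have b0 : |Q.pos k - Q.pos c| ≤ β := abs_le.2 ⟨by linarith [hkc'.2], by linarith [hkc'.1]⟩
    have b1 := abs_sub_le (Q.pos k) (Q.pos c) (Q.pos m)
    rw [abs_sub_comm (Q.pos c)] at b1
    refine ⟨by linarith [near k hk], Q.v E', hend E' hE', p₁.append p₄, fun v hv => ?_⟩
    rw [Walk.mem_support_append_iff] at hv
    rcases hv with hv | hv
    · have b2 := h.mem_right p₁ hv
      have b3 := h.tri (Q.v k) v (Q.v m)
      rw [Q.d_abs h hk hm] at b3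
      linarith [d4 m (min_le_left _ _) (le_max_left _ _) k hkc']
    · obtain ⟨k', c1, c2, rfl⟩ := hp₄ v hv
      rw [Q.d_abs h hk (c2.trans (max_le hm hEn'))]
      linarith [d4 k' c1 c2 k hkc']

theorem lemB' (lemB : LemBStmt) [Fintype V] (h : WG G ℓ δ) (z : V) (T : Set V) (L e : ℝ)
    (hT : T.Nonempty) (he : 0 ≤ e) (hL : ∀ τ ∈ T, L ≤ wdist G ℓ z τ) (ι : Type) [Fintype ι]
    (en : ι → V) (p : ∀ i, G.Walk z (en i)) (m : ι → ℝ) (hm : ∀ i, 0 ≤ m i) (hen : ∀ i, en i ∈ T)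
    (hp : ∀ i, wl ℓ (p i) ≤ L + e) :
    ∃ (ℓ' : Sym2 V → ℝ) (lam : ℝ) (g : Sym2 V → ℝ),
      (∀ ed ∈ G.edgeSet, ℓ ed ≤ ℓ' ed ∧ ℓ' ed ≤ 2 * ℓ ed) ∧ (∀ τ ∈ T, lam ≤ wdist G ℓ' z τ) ∧
      (∀ ed ∈ G.edgeSet, 0 ≤ g ed) ∧
      (∀ x y, (¬ ∃ τ ∈ T, wdist G ℓ' z x + wdist G ℓ' x τ ≤ lam) → g s(x, y) = ℓ s(x, y)) ∧
      ∑ i, m i * wl g (p i) ≤ 2 * e * ∑ i, m i := by
  obtain ⟨ℓ', lam, b1, b2, -, b4⟩ := lemB V G ℓ δ h z T L e hT he hL ι en p m hm hen hp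
  refine ⟨ℓ', lam, _, b1, b2, fun ed hed => ?_, fun x y hx => ?_, b4⟩
  · split_ifs
    · exact le_rfl
    · exact h.nn ed hed
  · rw [if_neg]
    exact fun hc => hx (hc x (Sym2.mem_mk_left x y))

/-- one type -/
theorem one_type (lemB : LemBStmt) [Fintype V] (h : WG G ℓ δ) (z : V) (Z : Set V)
    {L e R Λ : ℝ} (he : 0 ≤ e) {ι : Type} [Fintype ι] (P : ι → Prop)
    (u : ι → (Sym2 V → ℝ) → ℝ) (Pt : ι → Set V) (m : ι → ℝ) (hm : ∀ i, 0 ≤ m i)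
    (hZ : ∀ i, P i → Cn G Z ∧ ∀ y ∈ Z, L ≤ wdist G ℓ z y)
    (hP : ∀ i, P i → Arm G ℓ z Z L e (Λ * R) (u i) (Pt i)) :
    ∃ (ℓ' : Sym2 V → ℝ) (T : Set V) (lam : ℝ) (S : Set V) (g : Sym2 V → ℝ),
      TypeOK G ℓ ℓ' z T lam R Λ S ∧ (∀ x ∈ S, ∃ i, P i ∧ x ∈ Pt i) ∧
      (∀ ed ∈ G.edgeSet, 0 ≤ g ed) ∧
      (∀ i, P i → ∀ x ∈ Pt i, x ∉ S → ∀ y, g s(x, y) = ℓ s(x, y)) ∧
      ∑ i, (if P i then m i * u i g else 0) ≤ 2 * e * ∑ i, if P i then m i else 0 := by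
  by_cases hex : ∃ i, P i
  swap
  · push Not at hex
    refine ⟨ℓ, {z}, 0, ∅, ℓ, ⟨fun ed hed => ⟨le_rfl, by linarith [h.pos ed hed]⟩, Cn.single z,
      fun τ _ => h.nonneg _ _, by simp, by simp, by simp⟩, by simp, h.nn,
      fun i hi => absurd hi (hex i), by simp [hex]⟩
  obtain ⟨i₀, hi₀⟩ := hex
  obtain ⟨hZc, hZd⟩ := hZ i₀ hi₀
  choose en p Tl hen hTl hZT hTd hp hu hPt using fun i : {i // P i} => hP i.1 i.2
  have hTL : ∀ τ ∈ Z ∪ ⋃ i, Tl i, L ≤ wdist G ℓ z τ := by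
    rintro τ (hτ | hτ)
    · exact hZd τ hτ
    · obtain ⟨i, hi⟩ := Set.mem_iUnion.1 hτ
      exact hTd i τ hi
  obtain ⟨ℓ', lam, g, b1, b2, hg0, hg, b4⟩ := lemB' lemB h z (Z ∪ ⋃ i, Tl i) L e
    (hZc.1.mono Set.subset_union_left) he hTL {i // P i} en p (fun i => m i.1) (fun i => hm i.1)
    (fun i => Or.inr (Set.mem_iUnion.2 ⟨i, hen i⟩)) hp
  set T := Z ∪ ⋃ i, Tl i with hT
  refine ⟨ℓ', T, lam, {x | (∃ τ ∈ T, wdist G ℓ' z x + wdist G ℓ' x τ ≤ lam) ∧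
    ∃ i, P i ∧ x ∈ Pt i}, g, ⟨b1, hZc.attach Tl hTl fun i => Or.inl (hZT i), b2,
      fun x hx => hx.1, ?_, ?_⟩, fun x hx => hx.2, hg0, fun i hi x hx hxS y => ?_, ?_⟩
  · rintro x ⟨⟨τ, hτ, h1⟩, i, hi, hx⟩
    have c1 := (hPt ⟨i, hi⟩ x hx).1
    have c2 := (h.two_le b1 x τ).1
    linarith [hTL τ hτ, h.tri z x τ]
  · rintro x ⟨-, i, hi, hx⟩
    obtain ⟨τ, hτ, p₀, hp₀⟩ := (hPt ⟨i, hi⟩ x hx).2
    exact ⟨τ, Or.inl hτ, p₀, hp₀⟩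
  · exact hg x y fun hc => hxS ⟨hc, i, hi, hx⟩
  · rw [← sum_filter, ← sum_filter, sum_subtype _ (p := P) (by simp),
      sum_subtype (univ.filter P) (p := P) (by simp)]
    exact le_trans (sum_le_sum fun i _ => mul_le_mul_of_nonneg_left (hu i g hg0) (hm i.1)) b4

end Crest.Agent.N206.PL.Prot
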