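import Crest.Agent.N206.PL.Basic2

/-!
# Row 206, S0317, `protect`: volumes on one line, segments, lexicographic argmin (helper39)
-/

set_option autoImplicit false

noncomputable section

open scoped Classical

namespace Crest.Agent.N206.PL.Prot

open Crest.GeometryTopology.GraphMetric Crest.Agent.R206.Iface534 SimpleGraph Finset

variable {V : Type} {G : SimpleGraph V} {ℓ : Sym2 V → ℝ} {δ : ℝ}

/-- volume of a set of positions of one line -/
def lv (Q : Geo G ℓ) (A : ℕ → Prop) : ℝ := ∑ i ∈ range Q.n, if A i then Q.el i else 0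

theorem vol_eq {ι : Type} [Fintype ι] (Q : ι → Geo G ℓ) (f : ι → ℝ) (A : ι → ℕ → Prop) :
    vol Q f A = ∑ q, f q * lv (Q q) (A q) := rfl

theorem lv_eq (Q : Geo G ℓ) (A : ℕ → Prop) [DecidablePred A] :
    lv Q A = ∑ i ∈ range Q.n, if A i then Q.el i else 0 :=
  sum_congr rfl fun i _ => by by_cases h : A i <;> simp [h]

theorem lv_mono (h : WG G ℓ δ) (Q : Geo G ℓ) {A B : ℕ → Prop} (hAB : ∀ i < Q.n, A i → B i) :
    lv Q A ≤ lv Q B := by
  refine sum_le_sum fun i hi => ?_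
  have hi' := mem_range.1 hi
  have := (Q.el_pos h hi').le
  by_cases hA : A i
  · simp [hA, hAB i hi' hA]
  · by_cases hB : B i <;> simp [hA, hB, this]

theorem lv_nonneg (h : WG G ℓ δ) (Q : Geo G ℓ) (A : ℕ → Prop) : 0 ≤ lv Q A :=
  sum_nonneg fun i hi => by
    have := (Q.el_pos h (mem_range.1 hi)).le
    split_ifs <;> simp [this]

theorem lv_or (h : WG G ℓ δ) (Q : Geo G ℓ) {A B C : ℕ → Prop}
    (hABC : ∀ i < Q.n, A i → B i ∨ C i) : lv Q A ≤ lv Q B + lv Q C := by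
  unfold lv
  rw [← sum_add_distrib]
  refine sum_le_sum fun i hi => ?_
  have hi' := mem_range.1 hi
  have := (Q.el_pos h hi').le
  have h1 := hABC i hi'
  by_cases hA : A i <;> by_cases hB : B i <;> by_cases hC : C i <;> simp_all

theorem lv_empty (Q : Geo G ℓ) {A : ℕ → Prop} (hA : ∀ i < Q.n, ¬ A i) : lv Q A = 0 :=
  sum_eq_zero fun i hi => by simp [hA i (mem_range.1 hi)]

theorem lv_Ico (Q : Geo G ℓ) {i j : ℕ} (hij : i ≤ j) (hj : j ≤ Q.n) :
    lv Q (fun k => i ≤ k ∧ k < j) = Q.pos j - Q.pos i := by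
  rw [← Q.sum_el hij, lv_eq, ← sum_filter]
  refine sum_congr ?_ fun _ _ => rfl
  ext k
  simp only [mem_filter, mem_range, mem_Ico]
  omega

theorem le_of_pos (h : WG G ℓ δ) (Q : Geo G ℓ) {i j : ℕ} (hi : i ≤ Q.n)
    (hij : Q.pos i ≤ Q.pos j) : i ≤ j := by
  by_contra hc
  linarith [Q.pos_lt h (not_le.1 hc) hi]

theorem lt_of_pos (h : WG G ℓ δ) (Q : Geo G ℓ) {i j : ℕ} (hi : i ≤ Q.n)
    (hij : Q.pos i < Q.pos j) : i < j := by
  by_contra hc
  linarith [Q.pos_mono h (not_lt.1 hc) hi]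

/-- upper bound for the volume of an interval -/
theorem lv_le (h : WG G ℓ δ) (hδ : 0 ≤ δ) (Q : Geo G ℓ) {A : ℕ → Prop} {a b : ℝ} (hab : a ≤ b)
    (hA : ∀ i < Q.n, A i → a ≤ Q.pos i ∧ Q.pos i ≤ b) : lv Q A ≤ b - a + δ := by
  by_cases hne : ((range Q.n).filter A).Nonempty
  · obtain ⟨i, hi, himin⟩ := exists_min_image _ id hne
    obtain ⟨j, hj, hjmax⟩ := exists_max_image _ id hne
    simp only [mem_filter, mem_range, id] at hi hj himin hjmax
    have hij : i ≤ j := himin j hj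
    have h1 : lv Q A ≤ lv Q fun k => i ≤ k ∧ k < j + 1 :=
      lv_mono h Q fun k hk hAk => ⟨himin k ⟨hk, hAk⟩, Nat.lt_succ_of_le (hjmax k ⟨hk, hAk⟩)⟩
    rw [lv_Ico Q (by omega) (by omega)] at h1
    have h2 := Q.el_le h hj.1
    unfold Geo.el at h2
    linarith [(hA i hi.1 hi.2).1, (hA j hj.1 hj.2).2]
  · rw [lv_empty Q fun i hi hAi => hne ⟨i, by simp [hi, hAi]⟩]
    linarith

/-- the first index at distance at least `L` to the right -/
theorem exists_right (h : WG G ℓ δ) (hδ : 0 ≤ δ) (Q : Geo G ℓ) {a : ℕ} (ha : a ≤ Q.n) {L : ℝ}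
    (hL : 0 ≤ L) (hn : Q.pos a + L ≤ Q.pos Q.n) :
    ∃ e, a ≤ e ∧ e ≤ Q.n ∧ Q.pos a + L ≤ Q.pos e ∧ Q.pos e ≤ Q.pos a + L + δ ∧
      ∀ k, a ≤ k → k < e → Q.pos k < Q.pos a + L := by
  have hex : ∃ e, a ≤ e ∧ Q.pos a + L ≤ Q.pos e := ⟨Q.n, ha, hn⟩
  have hmin : ∀ k, a ≤ k → k < Nat.find hex → Q.pos k < Q.pos a + L := fun k hk hk' => by
    have := Nat.find_min hex hk'
    by_contra hc
    exact this ⟨hk, not_lt.1 hc⟩
  have he := Nat.find_spec hex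
  have hle : Nat.find hex ≤ Q.n := Nat.find_min' hex ⟨ha, hn⟩
  refine ⟨Nat.find hex, he.1, hle, he.2, ?_, hmin⟩
  rcases he.1.eq_or_lt with h1 | h1
  · rw [← h1]; linarith
  · obtain ⟨k, hk⟩ : ∃ k, Nat.find hex = k + 1 := ⟨Nat.find hex - 1, by omega⟩
    have h2 := hmin k (by omega) (by omega)
    have h3 := Q.el_le h (show k < Q.n by omega)
    unfold Geo.el at h3
    rw [hk]; linarith

/-- the first index at distance at least `L` to the left -/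
theorem exists_left (h : WG G ℓ δ) (hδ : 0 ≤ δ) (Q : Geo G ℓ) {a : ℕ} (ha : a ≤ Q.n) {L : ℝ}
    (hL : 0 ≤ L) (hn : Q.pos 0 + L ≤ Q.pos a) :
    ∃ e, e ≤ a ∧ Q.pos e + L ≤ Q.pos a ∧ Q.pos a ≤ Q.pos e + L + δ := by
  obtain ⟨e, h1, h2, h3, h4, -⟩ := exists_right h hδ (Q.rev h) (a := Q.n - a) (Nat.sub_le _ _) hL
    (by simp only [Geo.rev, Nat.sub_sub_self ha, Nat.sub_self]; linarith)
  simp only [Geo.rev, Nat.sub_sub_self ha] at h1 h2 h3 h4
  exact ⟨Q.n - e, by omega, by linarith, by linarith⟩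

/-- lower bound for the volume of an interval -/
theorem le_lv (h : WG G ℓ δ) (hδ : 0 ≤ δ) (Q : Geo G ℓ) {a : ℕ} (ha : a ≤ Q.n) {L : ℝ}
    (hL : 0 ≤ L) (hn : Q.pos a + L ≤ Q.pos Q.n) :
    L ≤ lv Q fun k => Q.pos a ≤ Q.pos k ∧ Q.pos k ≤ Q.pos a + L := by
  obtain ⟨e, h1, h2, h3, -, h5⟩ := exists_right h hδ Q ha hL hn
  have h6 := lv_mono h Q (A := fun k => a ≤ k ∧ k < e)
    (B := fun k => Q.pos a ≤ Q.pos k ∧ Q.pos k ≤ Q.pos a + L)
    fun k hk hk' => ⟨Q.pos_mono h hk'.1 hk.le, (h5 k hk'.1 hk'.2).le⟩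
  rw [lv_Ico Q h1 h2] at h6
  linarith

/-- double counting -/
theorem lv_dc (h : WG G ℓ δ) (Q : Geo G ℓ) {A : ℕ → Prop} (W : ℕ → ℕ → Prop) {a : ℝ}
    (b : ℕ → ℝ) (hW : ∀ i < Q.n, A i → a ≤ lv Q (W i))
    (hb : ∀ k < Q.n, lv Q (fun i => A i ∧ W i k) ≤ b k) :
    a * lv Q A ≤ ∑ k ∈ range Q.n, Q.el k * b k := by
  have h1 : a * lv Q A ≤ ∑ i ∈ range Q.n, ∑ k ∈ range Q.n,
      Q.el k * (if A i ∧ W i k then Q.el i else 0) := by
    rw [lv, mul_sum]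
    refine sum_le_sum fun i hi => ?_
    have hi' := mem_range.1 hi
    by_cases hA : A i
    · have h2 := mul_le_mul_of_nonneg_right (hW i hi' hA) (Q.el_pos h hi').le
      rw [lv, sum_mul] at h2
      simp only [hA, if_true, true_and]
      refine h2.trans (le_of_eq (sum_congr rfl fun k _ => ?_))
      split_ifs <;> simp
    · simp [hA]
  rw [sum_comm] at h1
  refine h1.trans (sum_le_sum fun k hk => ?_)
  rw [← mul_sum, ← lv_eq Q fun i => A i ∧ W i k]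
  exact mul_le_mul_of_nonneg_left (hb k (mem_range.1 hk)) (Q.el_pos h (mem_range.1 hk)).le

/-- a set whose points at distance at most `ρ` are at distance at most `2 γ` is sparse -/
theorem lv_sparse (h : WG G ℓ δ) (hδ : 0 ≤ δ) (Q : Geo G ℓ) {A N : ℕ → Prop} {γ ρ : ℝ}
    (hρ : 0 ≤ ρ) (hγ : δ ≤ γ) (hroom : ∀ i < Q.n, A i → Q.pos i + ρ ≤ Q.pos Q.n)
    (hN : ∀ i < Q.n, A i → ∀ k < Q.n, |Q.pos k - Q.pos i| ≤ ρ → N k)
    (hA : ∀ i < Q.n, ∀ j < Q.n, A i → A j → |Q.pos i - Q.pos j| ≤ ρ →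
      |Q.pos i - Q.pos j| ≤ 2 * γ) :
    ρ * lv Q A ≤ 5 * γ * lv Q N := by
  have h1 := lv_dc h Q (A := A) (fun i k => Q.pos i ≤ Q.pos k ∧ Q.pos k ≤ Q.pos i + ρ) (a := ρ)
    (fun k => if N k then 5 * γ else 0)
    (fun i hi hAi => le_lv h hδ Q hi.le hρ (hroom i hi hAi)) fun k hk => by
      by_cases hex : ∃ i < Q.n, A i ∧ Q.pos i ≤ Q.pos k ∧ Q.pos k ≤ Q.pos i + ρ
      · obtain ⟨i, hi, hAi, h2, h3⟩ := hex
        have hNk : N k := hN i hi hAi k hk (abs_le.2 ⟨by linarith, by linarith⟩)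
        simp only [hNk, if_true]
        have := lv_le h hδ Q (A := fun j => A j ∧ Q.pos j ≤ Q.pos k ∧ Q.pos k ≤ Q.pos j + ρ)
          (a := Q.pos i - 2 * γ) (b := Q.pos i + 2 * γ) (by linarith) fun j hj hj' => by
            have := abs_le.1 (hA i hi j hj hAi hj'.1
              (abs_le.2 ⟨by linarith [hj'.2.1], by linarith [hj'.2.2]⟩))
            constructor <;> linarith [this.1, this.2]
        linarith
      · rw [lv_empty Q fun i hi hi' => hex ⟨i, hi, hi'⟩]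
        split_ifs <;> linarith
  refine h1.trans (le_of_eq ?_)
  rw [lv, mul_sum]
  refine sum_congr rfl fun k _ => ?_
  split_ifs <;> ring

/-! ### segments as walks -/

theorem seg_le (Q : Geo G ℓ) {i j : ℕ} (hij : i ≤ j) (hj : j ≤ Q.n) :
    ∃ p : G.Walk (Q.v i) (Q.v j), (∀ g : Sym2 V → ℝ,
      wl g p = ∑ k ∈ Ico i j, g s(Q.v k, Q.v (k + 1))) ∧
      ∀ x ∈ p.support, ∃ k, i ≤ k ∧ k ≤ j ∧ Q.v k = x := by
  induction j, hij using Nat.le_induction with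
  | base => exact ⟨Walk.nil, by simp, fun x hx => ⟨i, le_rfl, le_rfl, by simpa [eq_comm] using hx⟩⟩
  | succ j hij ih =>
    obtain ⟨p, hp, hs⟩ := ih (Nat.le_of_succ_le hj)
    refine ⟨p.concat (Q.adj j hj), fun g => by rw [wl_concat, hp, sum_Ico_succ_top hij],
      fun x hx => ?_⟩
    rw [Walk.support_concat, List.mem_append, List.mem_singleton] at hx
    rcases hx with hx | rfl
    · obtain ⟨k, h1, h2, h3⟩ := hs x hx
      exact ⟨k, h1, h2.trans (Nat.le_succ j), h3⟩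
    · exact ⟨j + 1, hij.trans (Nat.le_succ j), le_rfl, rfl⟩

/-- the segment between two positions, in either direction -/
theorem seg (Q : Geo G ℓ) {i j : ℕ} (hi : i ≤ Q.n) (hj : j ≤ Q.n) :
    ∃ p : G.Walk (Q.v i) (Q.v j), (∀ g : Sym2 V → ℝ,
      wl g p = ∑ k ∈ Ico (min i j) (max i j), g s(Q.v k, Q.v (k + 1))) ∧
      ∀ x ∈ p.support, ∃ k, min i j ≤ k ∧ k ≤ max i j ∧ Q.v k = x := by
  rcases le_total i j with hij | hij
  · rw [min_eq_left hij, max_eq_right hij]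
    exact seg_le Q hij hj
  · rw [min_eq_right hij, max_eq_left hij]
    obtain ⟨p, hp, hs⟩ := seg_le Q hij hi
    exact ⟨p.reverse, fun g => by rw [wl_reverse, hp], fun x hx => hs x (by simpa using hx)⟩

theorem sum_len (h : WG G ℓ δ) (Q : Geo G ℓ) {i j : ℕ} (hi : i ≤ Q.n) (hj : j ≤ Q.n) :
    ∑ k ∈ Ico (min i j) (max i j), ℓ s(Q.v k, Q.v (k + 1)) = |Q.pos i - Q.pos j| := by
  have key : ∀ a b, a ≤ b → b ≤ Q.n →
      ∑ k ∈ Ico a b, ℓ s(Q.v k, Q.v (k + 1)) = Q.pos b - Q.pos a := fun a b hab hb => by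
    rw [← Q.sum_el hab]
    exact sum_congr rfl fun k hk => (Q.el_eq (by have := (mem_Ico.1 hk).2; omega)).symm
  rcases le_total i j with hij | hij
  · rw [min_eq_left hij, max_eq_right hij, key i j hij hj, abs_sub_comm,
      abs_of_nonneg (by linarith [Q.pos_mono h hij hj])]
  · rw [min_eq_right hij, max_eq_left hij, key j i hij hi,
      abs_of_nonneg (by linarith [Q.pos_mono h hij hi])]

/-! ### lexicographic argmin on a window -/

/-- `m` minimises `(φ, index)` among the positions within `r` of `c` -/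
def IsArg (Q : Geo G ℓ) (φ : V → ℕ) (c : ℕ) (r : ℝ) (m : ℕ) : Prop :=
  m ≤ Q.n ∧ |Q.pos m - Q.pos c| ≤ r ∧ ∀ k ≤ Q.n, |Q.pos k - Q.pos c| ≤ r →
    toLex (φ (Q.v m), m) ≤ toLex (φ (Q.v k), k)

theorem exists_arg (Q : Geo G ℓ) (φ : V → ℕ) (c : ℕ) (r : ℝ) :
    ∃ m, c ≤ Q.n → 0 ≤ r → IsArg Q φ c r m := by
  by_cases hc : c ≤ Q.n ∧ 0 ≤ r
  · obtain ⟨m, hm, hmin⟩ := exists_min_image
      ((range (Q.n + 1)).filter fun k => |Q.pos k - Q.pos c| ≤ r)
      (fun k => toLex (φ (Q.v k), k)) ⟨c, by simp [hc.1, hc.2]⟩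
    simp only [mem_filter, mem_range, Nat.lt_succ_iff] at hm hmin
    exact ⟨m, fun _ _ => ⟨hm.1, hm.2, fun k hk hk' => hmin k ⟨hk, hk'⟩⟩⟩
  · exact ⟨0, fun h1 h2 => absurd ⟨h1, h2⟩ hc⟩

theorem IsArg.uniq {Q : Geo G ℓ} {φ : V → ℕ} {c c' m m' : ℕ} {r : ℝ} (h : IsArg Q φ c r m)
    (h' : IsArg Q φ c' r m') (h1 : |Q.pos m - Q.pos c'| ≤ r) (h2 : |Q.pos m' - Q.pos c| ≤ r) :
    m = m' := by
  have := le_antisymm (h.2.2 m' h'.1 h2) (h'.2.2 m h.1 h1)
  exact (Prod.ext_iff.1 (toLex.injective this)).2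

/-- the form of the portal property on windows -/
theorem IsArg.portal (hw : WG G ℓ δ) {Q : Geo G ℓ} {φ : V → ℕ} {c m k : ℕ} {r B : ℝ}
    (h : IsArg Q φ c r m) (hk : k ≤ Q.n) (hkc : |Q.pos k - Q.pos c| ≤ r) (hB : 2 * r ≤ B) :
    ∃ i j, i ≤ k ∧ k ≤ j ∧ i ≤ m ∧ m ≤ j ∧ j ≤ Q.n ∧ Q.pos j - Q.pos i ≤ B ∧
      ∀ k', i ≤ k' → k' ≤ j → φ (Q.v m) ≤ φ (Q.v k') := by
  have hm := abs_le.1 h.2.1
  have hk' := abs_le.1 hkc
  have key : ∀ k', min k m ≤ k' → k' ≤ max k m → k' ≤ Q.n ∧ |Q.pos k' - Q.pos c| ≤ r := by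
    intro k' h1 h2
    have hn : k' ≤ Q.n := h2.trans (max_le hk h.1)
    refine ⟨hn, abs_le.2 ⟨?_, ?_⟩⟩
    · rcases min_le_iff.1 h1 with h3 | h3
      · linarith [Q.pos_mono hw h3 hn]
      · linarith [Q.pos_mono hw h3 hn]
    · rcases le_max_iff.1 h2 with h3 | h3
      · linarith [Q.pos_mono hw h3 hk]
      · linarith [Q.pos_mono hw h3 h.1]
  refine ⟨min k m, max k m, min_le_left _ _, le_max_left _ _, min_le_right _ _, le_max_right _ _,
    max_le hk h.1, ?_, fun k' h1 h2 => ?_⟩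
  · have a1 := abs_le.1 (key _ le_rfl min_le_max).2
    have a2 := abs_le.1 (key _ min_le_max le_rfl).2
    linarith [a1.1, a2.2]
  · have := h.2.2 k' (key k' h1 h2).1 (key k' h1 h2).2
    rcases Prod.Lex.le_iff.1 this with h3 | h3
    · exact le_of_lt h3
    · exact le_of_eq h3.1

/-- sums over all positions of a family of lines -/
theorem sum_sig {ι : Type} [Fintype ι] (n : ι → ℕ) (F : ι → ℕ → ℝ) :
    ∑ s : (q : ι) × Fin (n q), F s.1 s.2 = ∑ q, ∑ i ∈ range (n q), F q i := by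
  rw [Fintype.sum_sigma]
  exact sum_congr rfl fun q _ => Fin.sum_univ_eq_sum_range (F q) (n q)

end Crest.Agent.N206.PL.Prot
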