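import Crest.Agent.N206.PL.Protect.Arm

/-!
# Row 206, S0317: `protect : KPRStmt → PortalStmt → LemBStmt → ProtectStmt` (helper39)

Every position `c` at most `β` to the right of an active position is a centre.  A centre is good
when the two window minimisers of the portal function are far from it and the first one is padded.
Good centres are sorted into types; Lemma B is applied once per type; all volume estimates are
double counts.
-/

set_option autoImplicit false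

noncomputable section

open scoped Classical

namespace Crest.Agent.N206.PL

open Crest.GeometryTopology.GraphMetric Crest.Agent.R206.Iface534 SimpleGraph Finset

namespace Prot

variable {V : Type} {G : SimpleGraph V} {ℓ : Sym2 V → ℝ} {δ : ℝ}

theorem sum_ty {T ι : Type} [Fintype T] [Fintype ι] (P' : T → ι → Prop) (P : ι → Prop)
    (ty : ι → T) (hP : ∀ τ s, P' τ s ↔ P s ∧ ty s = τ) (F : ι → T → ℝ) :
    ∑ τ, ∑ s, (if P' τ s then F s τ else 0) = ∑ s, if P s then F s (ty s) else 0 := by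
  rw [sum_comm]
  refine sum_congr rfl fun s _ => ?_
  rw [sum_eq_single (ty s)]
  · by_cases h : P s <;> simp [hP, h]
  · intro τ _ hτ
    simp [hP, hτ.symm]
  · simp

/-- centres whose window minimiser is close are sparse -/
theorem bad_sparse (h : WG G ℓ δ) (hδ : 0 ≤ δ) (Q : Geo G ℓ) (φ : V → ℕ) (act : ℕ → Prop)
    {β γ ρ X : ℝ} (m : ℕ → ℕ) (hβ : 0 ≤ β) (hγ : δ ≤ γ) (hγρ : γ ≤ ρ) (hX : β + ρ ≤ X)
    (hm : ∀ c ≤ Q.n, IsArg Q φ c (2 * ρ) (m c))
    (hact : ∀ i, act i → Q.pos i + X < Q.pos Q.n) :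
    ρ * lv Q (fun c => (∃ k, act k ∧ Nr Q β k c) ∧ |Q.pos (m c) - Q.pos c| ≤ γ) ≤
      5 * γ * lv Q fun i => ∃ i', act i' ∧ |Q.pos i - Q.pos i'| ≤ X := by
  refine lv_sparse h hδ Q (by linarith) hγ ?_ ?_ ?_
  · rintro i - ⟨⟨k, hk, hki⟩, -⟩
    linarith [hact k hk, hki.2]
  · rintro i - ⟨⟨k, hk, hki⟩, -⟩ j - hj
    have := abs_le.1 hj
    exact ⟨k, hk, abs_le.2 ⟨by linarith [hki.1, this.1], by linarith [hki.2, this.2]⟩⟩
  · rintro i hi j hj ⟨-, h1⟩ ⟨-, h2⟩ hij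
    have a1 := abs_le.1 h1
    have a2 := abs_le.1 h2
    have a3 := abs_le.1 hij
    have := (hm i hi.le).uniq (hm j hj.le)
      (abs_le.2 ⟨by linarith [a1.1, a3.1], by linarith [a1.2, a3.2]⟩)
      (abs_le.2 ⟨by linarith [a2.1, a3.2], by linarith [a2.2, a3.1]⟩)
    rw [this] at a1
    exact abs_le.2 ⟨by linarith [a1.2, a2.1], by linarith [a1.1, a2.2]⟩

/-- the main double count on one line -/
theorem line_bound (h : WG G ℓ δ) (hδ : 0 ≤ δ) (Q : Geo G ℓ) (U cen good : ℕ → Prop)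
    (g : ℕ → Sym2 V → ℝ) {β : ℝ} (hβ : δ ≤ β)
    (hroom : ∀ i < Q.n, U i → Q.pos i + β ≤ Q.pos Q.n)
    (hcen : ∀ i c, U i → Nr Q β i c → cen c) (hg0 : ∀ c, ∀ ed ∈ G.edgeSet, 0 ≤ g c ed)
    (hg : ∀ c < Q.n, good c → ∀ i, U i → Nr Q β i c → ∀ y, g c s(Q.v i, y) = ℓ s(Q.v i, y)) :
    β * lv Q U ≤ ∑ c ∈ range Q.n, (if good c then Q.el c * un Q β c (g c) else 0) +
      2 * β * lv Q fun c => cen c ∧ ¬ good c := by
  have hβ0 : 0 ≤ β := hδ.trans hβ
  have h1 := lv_dc h Q (A := U) (Nr Q β) (a := β)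
    (fun c => if good c then un Q β c (g c) else if cen c then 2 * β else 0)
    (fun i hi hU => le_lv h hδ Q hi.le hβ0 (hroom i hi hU)) fun c hc => by
      by_cases hgc : good c
      · simp only [hgc, if_true]
        refine sum_le_sum fun i hi => ?_
        have hi' := mem_range.1 hi
        by_cases hU : U i ∧ Nr Q β i c
        · rw [if_pos hU, if_pos hU.2, hg c hc hgc i hU.1 hU.2, Q.el_eq hi']
        · rw [if_neg hU]
          split_ifs
          · exact hg0 c _ (Q.adj i hi')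
          · exact le_rfl
      · by_cases hcc : cen c
        · simp only [hgc, hcc, if_true, if_false]
          have := lv_le h hδ Q (A := fun i => U i ∧ Nr Q β i c) (a := Q.pos c - β) (b := Q.pos c)
            (by linarith) fun i _ hi => ⟨by linarith [hi.2.2], hi.2.1⟩
          linarith
        · simp only [hgc, hcc, if_false]
          exact (lv_empty Q fun i _ hi => hcc (hcen i c hi.1 hi.2)).le
  refine h1.trans (le_of_eq ?_)
  rw [lv, mul_sum, ← sum_add_distrib]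
  refine sum_congr rfl fun c _ => ?_
  by_cases hgc : good c <;> by_cases hcc : cen c <;> simp [hgc, hcc, mul_comm]

theorem core (lemB : LemBStmt) [Fintype V] (h : WG G ℓ δ) (hδ : 0 ≤ δ)
    {R Λ θ Ds β ρ ρ₂ X : ℝ} (M : ℕ) (φ : V → ℕ)
    (hφ : ∀ x₀ : V, ∃ H : Finset V, H.card ≤ M ∧
      ∀ (Q : Geo G ℓ) (i j k m : ℕ), i ≤ k → k ≤ j → i ≤ m → m ≤ j → j ≤ Q.n →
        Q.pos j - Q.pos i ≤ 4 * ρ₂ → wdist G ℓ x₀ (Q.v k) ≤ R / 2 →
        (∀ k', i ≤ k' → k' ≤ j → φ (Q.v m) ≤ φ (Q.v k')) →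
        ∃ h ∈ H, wdist G ℓ (Q.v m) h ≤ 2 * R)
    (kpr : ∀ (ι : Type) [Fintype ι] (x : ι → V) (ω : ι → ℝ), (∀ i, 0 ≤ ω i) →
      ∃ c : V → V, (∀ y, wdist G ℓ y (c y) ≤ Ds) ∧
        ∑ i, (if ∀ y ∈ bl G ℓ (x i) (2 * R), c y = c (x i) then 0 else ω i) ≤ θ * ∑ i, ω i)
    (hR : 0 < R) (hΛ : 1 ≤ Λ) (hθ : 0 < θ) (hDs : δ ≤ Ds) (h1 : Ds + Λ * R ≤ β)
    (h2 : 2 * β ≤ ρ) (h3 : 8 * ρ ≤ ρ₂) (h4 : 2 * ρ₂ ≤ X) (t1 : Ds ≤ θ * β) (t2 : β ≤ θ * ρ)
    (t3 : ρ ≤ θ * ρ₂) (ι : Type) [Fintype ι] (Q : ι → Geo G ℓ) (f : ι → ℝ) (act : ι → ℕ → Prop)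
    (hf : ∀ q, 0 ≤ f q) (hact : ∀ q i, act q i → i < (Q q).n ∧
        ¬ Sep G (bl G ℓ ((Q q).v i) X) ((Q q).v 0) ((Q q).v (Q q).n)) :
    ∃ (ℓ' : V × Set V → Sym2 V → ℝ) (T : V × Set V → Set V)
      (lam : V × Set V → ℝ) (S : V × Set V → Set V),
      (∀ τ, TypeOK G ℓ (ℓ' τ) τ.1 (T τ) (lam τ) R Λ (S τ)) ∧
      (∀ x₀, (Finset.univ.filter fun τ => ∃ x ∈ S τ, wdist G ℓ x₀ x ≤ R / 2).card ≤ M * M) ∧
      (∀ τ, ∀ x ∈ S τ, ∃ q i, act q i ∧ (Q q).v i = x) ∧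
      vol Q f (fun q i => act q i ∧ ∀ τ, (Q q).v i ∉ S τ) ≤
        108 * θ * vol Q f (fun q i => ∃ i', act q i' ∧ |(Q q).pos i - (Q q).pos i'| ≤ X) := by
  have hDs0 : 0 ≤ Ds := hδ.trans hDs
  have hΛR : R ≤ Λ * R := by nlinarith
  have hβ0 : 0 < β := by linarith
  choose m₁ hm₁ using fun q c => exists_arg (Q q) φ c (2 * ρ)
  choose m₂ hm₂ using fun q c => exists_arg (Q q) φ c (2 * ρ₂)
  replace hm₁ := fun q c hc => hm₁ q c hc (by linarith)
  replace hm₂ := fun q c hc => hm₂ q c hc (by linarith)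
  obtain ⟨cen, hcen⟩ : ∃ cen : ι → ℕ → Prop, ∀ q c, cen q c ↔ ∃ k, act q k ∧ Nr (Q q) β k c :=
    ⟨_, fun _ _ => Iff.rfl⟩
  obtain ⟨cc, hcc, hpad⟩ := kpr ((q : ι) × Fin (Q q).n) (fun s => (Q s.1).v (m₁ s.1 s.2))
    (fun s => f s.1 * if cen s.1 s.2 then (Q s.1).el s.2 else 0) fun s => by
      have := ((Q s.1).el_pos h s.2.2).le
      refine mul_nonneg (hf _) ?_
      split_ifs
      · exact this
      · exact le_rfl
  obtain ⟨pad, hpd⟩ : ∃ pad : ι → ℕ → Prop, ∀ q c, pad q c ↔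
      ∀ y ∈ bl G ℓ ((Q q).v (m₁ q c)) (2 * R), cc y = cc ((Q q).v (m₁ q c)) :=
    ⟨_, fun _ _ => Iff.rfl⟩
  obtain ⟨good, hgood⟩ : ∃ good : ι → ℕ → Prop, ∀ q c, good q c ↔ cen q c ∧
      2 * β < |(Q q).pos (m₁ q c) - (Q q).pos c| ∧ 8 * ρ < |(Q q).pos (m₂ q c) - (Q q).pos c| ∧
      pad q c := ⟨_, fun _ _ => Iff.rfl⟩
  obtain ⟨ty, hty⟩ : ∃ ty : ι → ℕ → V × Set V, ∀ q c, ty q c = (cc ((Q q).v (m₁ q c)),
      cmp G (bl G ℓ (cc ((Q q).v (m₁ q c))) (4 * ρ))ᶜ ((Q q).v (m₂ q c))) := ⟨_, fun _ _ => rfl⟩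
  have harm : ∀ q, ∀ c < (Q q).n, good q c →
      6 * ρ - Ds < wdist G ℓ (cc ((Q q).v (m₁ q c))) ((Q q).v (m₂ q c)) ∧
      Arm G ℓ (ty q c).1 (ty q c).2 (4 * ρ - Ds) (3 * Ds) (Λ * R) (un (Q q) β c)
        {x | ∃ k, act q k ∧ Nr (Q q) β k c ∧ (Q q).v k = x} := by
    intro q c hc hg
    obtain ⟨g1, g2, g3, -⟩ := (hgood q c).1 hg
    obtain ⟨k₀, hk₀, hk₀c⟩ := (hcen q c).1 g1
    obtain ⟨a1, a2⟩ := arm h hδ (Q q) (W := Λ * R) (X := X) (hact q k₀ hk₀).1.le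
      (hm₁ q c hc.le).1 (hm₂ q c hc.le).1 hk₀c (hact q k₀ hk₀).2 (hm₁ q c hc.le).2.1 g2 g3
      (hcc _) hDs (by linarith) h1 h2 (by linarith)
    rw [hty]
    exact ⟨a1, a2.mono fun x ⟨k, b1, b2, b3⟩ => ⟨k, (hact q k b1).1.le, b2, b3⟩⟩
  obtain ⟨P, hP⟩ : ∃ P : V × Set V → ((q : ι) × Fin (Q q).n) → Prop,
      ∀ τ s, P τ s ↔ good s.1 s.2 ∧ ty s.1 s.2 = τ := ⟨_, fun _ _ => Iff.rfl⟩
  choose ℓ' T lam S g c1 c2 c3 c4 c5 using fun τ : V × Set V =>
    one_type lemB h τ.1 τ.2 (L := 4 * ρ - Ds) (e := 3 * Ds) (R := R) (Λ := Λ) (by linarith) (P τ)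
      (fun s => un (Q s.1) β s.2) (fun s => {x | ∃ k, act s.1 k ∧ Nr (Q s.1) β k s.2 ∧
        (Q s.1).v k = x}) (fun s => f s.1 * (Q s.1).el s.2)
      (fun s => mul_nonneg (hf _) ((Q s.1).el_pos h s.2.2).le)
      (fun s hs => by
        obtain ⟨hg, rfl⟩ := (hP τ s).1 hs
        have a1 := (harm s.1 s.2 s.2.2 hg).1
        rw [hty]
        refine ⟨cn_cmp ?_, fun y hy => ?_⟩
        · simp only [Set.mem_compl_iff, mem_bl, not_le]
          linarith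
        · have := cmp_sub _ _ hy
          simp only [Set.mem_compl_iff, mem_bl, not_le] at this
          dsimp only
          linarith)
      fun s hs => by
        obtain ⟨hg, rfl⟩ := (hP τ s).1 hs
        exact (harm s.1 s.2 s.2.2 hg).2
  refine ⟨ℓ', T, lam, S, c1, fun x₀ => ?_, fun τ x hx => ?_, ?_⟩
  · obtain ⟨H, hH, hport⟩ := hφ x₀
    refine le_trans (card_le_card (t := (H ×ˢ H).image fun hh =>
      (cc hh.1, cmp G (bl G ℓ (cc hh.1) (4 * ρ))ᶜ hh.2)) fun τ hτ => ?_)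
      (card_image_le.trans (by rw [card_product]; exact Nat.mul_le_mul hH hH))
    obtain ⟨x, hx, hx₀⟩ := (mem_filter.1 hτ).2
    obtain ⟨⟨q, c⟩, hs, k, hk, hkc, rfl⟩ := c2 τ x hx
    obtain ⟨hg, rfl⟩ := (hP τ _).1 hs
    dsimp only at hk hkc hx₀ hg ⊢
    have hkn := (hact q k hk).1.le
    have b0 : |(Q q).pos k - (Q q).pos c| ≤ β :=
      abs_le.2 ⟨by linarith [hkc.2], by linarith [hkc.1]⟩
    obtain ⟨i, j, d1, d2, d3, d4, d5, d6, d7⟩ := (hm₁ q c c.2.le).portal h (B := 4 * ρ₂) hkn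
      (by linarith) (by linarith)
    obtain ⟨y₁, hy₁, e₁⟩ := hport (Q q) i j k _ d1 d2 d3 d4 d5 d6 hx₀ d7
    obtain ⟨i, j, d1, d2, d3, d4, d5, d6, d7⟩ := (hm₂ q c c.2.le).portal h (B := 4 * ρ₂) hkn
      (by linarith) (by linarith)
    obtain ⟨y₂, hy₂, e₂⟩ := hport (Q q) i j k _ d1 d2 d3 d4 d5 d6 hx₀ d7
    have e₃ : cc y₁ = cc ((Q q).v (m₁ q c)) := (hpd q c).1 ((hgood q c).1 hg).2.2.2 y₁ e₁
    refine mem_image.2 ⟨(y₁, y₂), mem_product.2 ⟨hy₁, hy₂⟩, ?_⟩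
    rw [hty]
    dsimp only
    rw [e₃]
    refine Prod.ext rfl (cmp_eq ?_)
    obtain ⟨p, -, hp⟩ := h.exists_geo ((Q q).v (m₂ q c)) y₂
    refine ⟨p, fun v hv => ?_⟩
    have a1 := (harm q c c.2 hg).1
    have a2 := h.mem_left p hv
    have a3 := h.tri (cc ((Q q).v (m₁ q c))) v ((Q q).v (m₂ q c))
    rw [h.comm v] at a3
    simp only [Set.mem_compl_iff, mem_bl, not_le]
    linarith
  · obtain ⟨s, -, k, hk, -, hx⟩ := c2 τ x hx
    exact ⟨s.1, k, hk, hx⟩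
  obtain ⟨Nb, hNb⟩ : ∃ Nb : ι → ℕ → Prop, Nb = fun q i =>
      ∃ i', act q i' ∧ |(Q q).pos i - (Q q).pos i'| ≤ X := ⟨_, rfl⟩
  have hend : ∀ q i, act q i → (Q q).pos i + X < (Q q).pos (Q q).n := fun q i hi =>
    (ends h (Q q) (hact q i hi).1.le (hact q i hi).2).2
  have hcN : ∀ q c, cen q c → Nb q c := fun q c hc => by
    obtain ⟨k, hk, hkc⟩ := (hcen q c).1 hc
    rw [hNb]
    exact ⟨k, hk, abs_le.2 ⟨by linarith [hkc.1], by linarith [hkc.2]⟩⟩
  -- one line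
  have hline : ∀ q, β * lv (Q q) (fun i => act q i ∧ ∀ τ, (Q q).v i ∉ S τ) ≤
      ∑ c ∈ range (Q q).n, (if good q c then (Q q).el c * un (Q q) β c (g (ty q c)) else 0) +
        2 * β * (50 * θ * lv (Q q) (Nb q) + lv (Q q) fun c => cen q c ∧ ¬ pad q c) := by
    intro q
    have a1 := line_bound h hδ (Q q) (fun i => act q i ∧ ∀ τ, (Q q).v i ∉ S τ) (cen q) (good q)
      (fun c => g (ty q c)) (β := β) (by linarith) (fun i _ hi => by linarith [hend q i hi.1])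
      (fun i c hi hic => (hcen q c).2 ⟨i, hi.1, hic⟩) (fun c => c3 _)
      fun c hc hg i hi hic y => c4 (ty q c) ⟨q, ⟨c, hc⟩⟩ ((hP _ _).2 ⟨hg, rfl⟩) _
        ⟨i, hi.1, hic, rfl⟩ (hi.2 _) y
    have a2 := bad_sparse h hδ (Q q) φ (act q) (m₁ q) (β := β) (γ := 2 * β) (X := X) hβ0.le
      (by linarith) h2 (by linarith) (hm₁ q) (hend q)
    have a3 := bad_sparse h hδ (Q q) φ (act q) (m₂ q) (β := β) (γ := 8 * ρ) (X := X) hβ0.le
      (by linarith) h3 (by linarith) (hm₂ q) (hend q)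
    have a4 := lv_or h (Q q) (A := fun c => cen q c ∧ ¬ good q c)
      (B := fun c => ((∃ k, act q k ∧ Nr (Q q) β k c) ∧
          |(Q q).pos (m₁ q c) - (Q q).pos c| ≤ 2 * β) ∨ ((∃ k, act q k ∧ Nr (Q q) β k c) ∧
          |(Q q).pos (m₂ q c) - (Q q).pos c| ≤ 8 * ρ))
      (C := fun c => cen q c ∧ ¬ pad q c) fun c _ hc => by
        have b1 := hc.2
        rw [hgood] at b1
        have b2 := (hcen q c).1 hc.1
        by_contra hcon
        simp only [not_or, not_and, not_le, not_not] at hcon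
        exact b1 ⟨hc.1, hcon.1.1 b2, hcon.1.2 b2, hcon.2 hc.1⟩
    have a5 := lv_or h (Q q) (A := fun c => ((∃ k, act q k ∧ Nr (Q q) β k c) ∧
          |(Q q).pos (m₁ q c) - (Q q).pos c| ≤ 2 * β) ∨ ((∃ k, act q k ∧ Nr (Q q) β k c) ∧
          |(Q q).pos (m₂ q c) - (Q q).pos c| ≤ 8 * ρ)) fun c _ hc => hc
    have hN : lv (Q q) (fun i => ∃ i', act q i' ∧ |(Q q).pos i - (Q q).pos i'| ≤ X) =
        lv (Q q) (Nb q) := by rw [hNb]
    rw [hN] at a2 a3
    have n0 := lv_nonneg h (Q q) (Nb q)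
    have hρ0 : 0 < ρ := by linarith
    have hρ2 : 0 < ρ₂ := by linarith
    have a6 := le_of_mul_le_mul_left (a2.trans (show _ ≤ ρ * (10 * θ * lv (Q q) (Nb q)) by
      nlinarith [mul_le_mul_of_nonneg_right t2 n0])) hρ0
    have a7 := le_of_mul_le_mul_left (a3.trans (show _ ≤ ρ₂ * (40 * θ * lv (Q q) (Nb q)) by
      nlinarith [mul_le_mul_of_nonneg_right t3 n0])) hρ2
    refine a1.trans (add_le_add le_rfl (mul_le_mul_of_nonneg_left ?_ (by linarith)))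
    linarith
  -- the three global sums
  have hV0 : 0 ≤ vol Q f Nb := sum_nonneg fun q _ => mul_nonneg (hf q) (lv_nonneg h _ _)
  have hcenV : ∑ q, f q * lv (Q q) (cen q) ≤ vol Q f Nb :=
    sum_le_sum fun q _ => mul_le_mul_of_nonneg_left (lv_mono h _ fun c _ => hcN q c) (hf q)
  have s1 : ∑ q, f q * lv (Q q) (fun c => cen q c ∧ ¬ pad q c) ≤ θ * vol Q f Nb := by
    refine le_trans (le_of_eq ?_) (hpad.trans (mul_le_mul_of_nonneg_left (le_trans (le_of_eq ?_)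
      hcenV) hθ.le))
    · rw [sum_sig (fun q => (Q q).n) fun q c => if ∀ y ∈ bl G ℓ ((Q q).v (m₁ q c)) (2 * R),
        cc y = cc ((Q q).v (m₁ q c)) then 0 else f q * if cen q c then (Q q).el c else 0]
      refine sum_congr rfl fun q _ => ?_
      rw [lv, mul_sum]
      refine sum_congr rfl fun c _ => ?_
      by_cases hp : pad q c
      · rw [if_pos ((hpd q c).1 hp), if_neg (fun hc => hc.2 hp), mul_zero]
      · rw [if_neg (fun hc => hp ((hpd q c).2 hc))]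
        by_cases hc : cen q c <;> simp [hc, hp]
    · rw [sum_sig (fun q => (Q q).n) fun q c => f q * if cen q c then (Q q).el c else 0]
      exact sum_congr rfl fun q _ => by rw [lv, mul_sum]
  have s2 : ∑ q, f q * ∑ c ∈ range (Q q).n,
      (if good q c then (Q q).el c * un (Q q) β c (g (ty q c)) else 0) ≤
        6 * Ds * vol Q f Nb := by
    have b1 := sum_le_sum fun τ (_ : τ ∈ (univ : Finset (V × Set V))) => c5 τ
    rw [← mul_sum, sum_ty P (fun s => good s.1 s.2) (fun s => ty s.1 s.2) hP,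
      sum_ty P (fun s => good s.1 s.2) (fun s => ty s.1 s.2) hP fun s _ => f s.1 * (Q s.1).el s.2,
      sum_sig (fun q => (Q q).n) fun q c => if good q c then f q * (Q q).el c else 0,
      sum_sig (fun q => (Q q).n) fun q c =>
        if good q c then f q * (Q q).el c * un (Q q) β c (g (ty q c)) else 0] at b1
    refine le_trans (le_of_eq (sum_congr rfl fun q _ => ?_)) (b1.trans ?_)
    · rw [mul_sum]
      exact sum_congr rfl fun c _ => by split_ifs <;> ring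
    · rw [show 2 * (3 * Ds) = 6 * Ds by ring]
      refine mul_le_mul_of_nonneg_left (sum_le_sum fun q _ => ?_) (by linarith)
      refine le_trans (le_of_eq ?_) (mul_le_mul_of_nonneg_left (lv_mono h (Q q) (A := good q)
        fun c _ hc => hcN q c ((hgood q c).1 hc).1) (hf q))
      rw [lv, mul_sum]
      exact sum_congr rfl fun c _ => by split_ifs <;> ring
  have s3 := sum_le_sum fun q (_ : q ∈ (univ : Finset ι)) =>
    mul_le_mul_of_nonneg_left (hline q) (hf q)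
  have s4 : β * vol Q f (fun q i => act q i ∧ ∀ τ, (Q q).v i ∉ S τ) ≤
      6 * Ds * vol Q f Nb + 2 * β * (50 * θ * vol Q f Nb + θ * vol Q f Nb) := by
    rw [vol_eq, mul_sum]
    refine le_trans (le_of_eq (sum_congr rfl fun q _ => by ring)) (s3.trans ?_)
    simp only [mul_add, sum_add_distrib]
    refine add_le_add s2 (add_le_add (le_of_eq ?_) ?_)
    · rw [vol_eq, mul_sum, mul_sum]
      exact sum_congr rfl fun q _ => by ring
    · refine le_trans (le_of_eq ?_) (mul_le_mul_of_nonneg_left s1 (by linarith))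
      rw [mul_sum]
      exact sum_congr rfl fun q _ => by ring
  rw [← hNb]
  refine le_of_mul_le_mul_left (s4.trans ?_) hβ0
  nlinarith [mul_le_mul_of_nonneg_right t1 hV0]

end Prot

/-- **Protection** of most of the volume of long neck-free lines -/
theorem protect (kpr : KPRStmt) (portal : PortalStmt) (lemB : LemBStmt) : ProtectStmt := by
  intro Λ θ hΛ hθ
  obtain ⟨Δ, hΔ, kpr⟩ := kpr
  obtain ⟨t, ht0, ht1, ht2⟩ : ∃ t : ℝ, 0 < t ∧ t ≤ 1 / 108 ∧ 108 * t ≤ θ :=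
    ⟨min θ 1 / 108, by positivity, by linarith [min_le_right θ 1], by linarith [min_le_left θ 1]⟩
  have up : ∀ a : ℝ, 0 ≤ a → ∃ b, 108 * a ≤ b ∧ a = t * b := fun a ha =>
    ⟨a / t, by rw [le_div_iff₀ ht0]; nlinarith, by field_simp⟩
  obtain ⟨s, s1, s2⟩ := up (Δ * 2) (by linarith)
  obtain ⟨b, b1, b2⟩ := up (s + Λ) (by linarith)
  obtain ⟨p, p1, p2⟩ := up b (by linarith)
  obtain ⟨r, r1, r2⟩ := up p (by linarith)
  obtain ⟨M, portal⟩ := portal (4 * r)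
  refine ⟨2 * r, 1, M * M, by linarith, one_pos, ?_⟩
  intro V _ G ℓ δ h hMF R hR hδ ι _ Q f act hf hact
  have h' : WG G ℓ R := h.mono (by linarith)
  obtain ⟨φ, hφ⟩ := portal V G ℓ δ h hMF R hR
  have hs : Δ * (2 * R) / t = s * R := by
    rw [div_eq_iff ht0.ne']
    linear_combination R * s2
  obtain ⟨ℓ', T, lam, S, c1, c2, c3, c4⟩ := Prot.core lemB h' hR.le (R := R) (Λ := Λ) (θ := t)
    (Ds := s * R) (β := b * R) (ρ := p * R) (ρ₂ := r * R) (X := 2 * r * R) M φ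
    (fun x₀ => by
      obtain ⟨H, hH, hp⟩ := hφ x₀
      exact ⟨H, hH, fun Q i j k m a1 a2 a3 a4 a5 a6 => hp Q i j k m a1 a2 a3 a4 a5 (by linarith)⟩)
    (fun ι _ x ω hω => by
      obtain ⟨c, d1, -, d3⟩ := kpr V G ℓ R h' hMF (2 * R) t (by linarith) ht0 (by linarith)
        (by linarith) ι x ω hω
      exact ⟨c, fun y => hs ▸ d1 y, d3⟩)
    hR hΛ ht0 (by nlinarith) (by nlinarith) (by nlinarith) (by nlinarith) (by linarith)
    (by nlinarith) (le_of_eq (by linear_combination R * p2))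
    (le_of_eq (by linear_combination R * r2)) ι Q f act hf hact
  refine ⟨V × Set V, inferInstance, ℓ', Prod.fst, T, lam, S, c1, fun x₀ => ?_, fun τ x hx => ?_,
    c4.trans (mul_le_mul_of_nonneg_right ht2 ?_)⟩
  · convert c2 x₀
  · obtain ⟨q, i, hi, rfl⟩ := c3 τ x hx
    exact ⟨q, i, hi, by rw [h.self]; exact mul_nonneg (by linarith) hR.le⟩
  · exact Finset.sum_nonneg fun q _ => mul_nonneg (hf q) (Prot.lv_nonneg h _ _)

end Crest.Agent.N206.PL
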